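import Vale.Agent.P088.R2.H446.E.PTzI
import Vale.Agent.P088.R2.H455.E.Lett
import Vale.Agent.P088.R2.H558.G.TopW
import Vale.Agent.P088.R2.H509.EP.TG
import Vale.Agent.P088.R2.H972.EP.Zs
import Vale.Agent.P088.R2.H281.EP.Bas

/-!
# P088, stage 3: the payments between the tubes and region I, for the letters `Mz`, `coz`

`pay_T1_I`, `pay_T2_I : PayE L .T1 .zI`, `PayE L .T2 .zI`; `pay_I_T1`, `pay_I_T2`: the cost of `zI`
against `T1`, `T2` (where both cut-offs are not zero).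
-/

open Set Filter
open scoped ContDiff Topology Matrix

set_option linter.unusedSectionVars false

noncomputable section

namespace Vale.Agent.P088.R2.H446.E

open Vale.Agent.P088.LR Vale.Agent.P088.HY
open Vale.Agent.P088.R2.H961.GW Vale.Agent.P088.R2.H960.W Vale.Agent.P088.R2.H644
open Vale.Agent.P088.R2.H551.E Vale.Agent.P088.R2.H338.C
open Vale.Agent.P088.R2.H165.Tab Vale.Agent.P088.R2.H509.PT
open Vale.Agent.P088.R2.H31.EP Vale.Agent.P088.R2.H455.E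
open Vale.Agent.P088.R2.H867.Z (sq1 sqp sq1_nn sqp_nn)
open Vale.Agent.P088.R2.H338.TC (Na rx ry)
open Vale.Agent.P088.R2.H354.T (etx ety etx_mem ety_mem etx_supp ety_supp bq)
open Vale.Agent.P088.R2.H509.TG (GT evGT TR p₃ p₃_ge alive_T1 alive_T2 u_close)
open Vale.Agent.P088.R2.H932.EP (NrC evNr)
open Vale.Agent.P088.R2.H972.EP (a0 a0_nb a0_nn gp_le gq_le)
open Vale.Agent.P088.R2.H205.CP (gq gp dq dp)
open Vale.Agent.P088.R2.H867.EP (Zo)

/-! ## Pointwise -/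

section pt

variable {E ι : Type*} [NormedAddCommGroup E] [NormedSpace ℝ E] [Fintype ι]
variable {σ τ : Sl E ι} {v₁ v₂ W a b : E → ℝ} {z : E}

/-- The signs at a point. -/
structure Sg (ν : Nu E) (z : E) : Prop where
  En : 0 ≤ ν.En z
  m : 0 ≤ ν.m z
  F₁ : 0 ≤ ν.F₁ z
  F₂ : 0 ≤ ν.F₂ z

theorem Sg.wI {ν : Nu E} (s : Sg ν z) : 0 ≤ ν.wI z := by
  have := s.En
  have := s.m
  unfold Nu.wI
  positivity

/-- The letters of `zI` dominate those of the tube `W_x = 0` where `ρx = 1`. -/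
theorem bigL1 {ν : Nu E} {c cT : ℝ} {N ρx ρy : E → ℝ} (s : Sg ν z) (hc : 0 ≤ c) (hT : 0 ≤ cT)
    (hN : 0 ≤ N z) (h1 : ρx z = 1) :
    Big (MI ν c + TL cT N ρx ρy) c cT (N z) (N z ^ 2) (N z ^ 3) z := by
  have f1 := s.F₁
  have f2 := s.F₂
  have e0 := s.En
  have hI := s.wI
  have y2 : 0 ≤ ρy z ^ 2 := sq_nonneg _
  refine ⟨?_, ?_, ?_, ?_, ?_, ?_, ?_, ?_⟩
  · show c ≤ c + 0
    linarith
  · show cT * N z ≤ c + cT * (N z * (ρx z ^ 2 + ρy z ^ 2))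
    rw [h1]
    have := mul_nonneg hT (mul_nonneg hN y2)
    nlinarith
  · show cT * N z ≤ c + cT * (N z * (ρx z ^ 2 + ρy z ^ 2))
    rw [h1]
    have := mul_nonneg hT (mul_nonneg hN y2)
    nlinarith
  · show 0 ≤ c * ν.En z + 0
    positivity
  · show cT * N z ^ 2 ≤ c * ν.F₁ z + cT * (N z ^ 2 * ρx z ^ 2 + N z ^ 3 * ρy z ^ 2)
    rw [h1]
    have k1 := mul_nonneg hT (mul_nonneg (pow_nonneg hN 3) y2)
    have k2 := mul_nonneg hc f1
    nlinarith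
  · show cT * N z ^ 3 ≤ c * ν.F₂ z + cT * (N z ^ 3 * ρx z ^ 2 + N z ^ 2 * ρy z ^ 2)
    rw [h1]
    have k1 := mul_nonneg hT (mul_nonneg (pow_nonneg hN 2) y2)
    have k2 := mul_nonneg hc f2
    nlinarith
  · show 0 ≤ c * ν.En z ^ 2 + 0
    positivity
  · show 0 ≤ c * ν.wI z + 0
    positivity

/-- The letters of `zI` dominate those of the tube `W_y = 0` where `ρy = 1`. -/
theorem bigL2 {ν : Nu E} {c cT : ℝ} {N ρx ρy : E → ℝ} (s : Sg ν z) (hc : 0 ≤ c) (hT : 0 ≤ cT)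
    (hN : 0 ≤ N z) (h1 : ρy z = 1) :
    Big (MI ν c + TL cT N ρx ρy) c cT (N z) (N z ^ 3) (N z ^ 2) z := by
  have f1 := s.F₁
  have f2 := s.F₂
  have e0 := s.En
  have hI := s.wI
  have y2 : 0 ≤ ρx z ^ 2 := sq_nonneg _
  refine ⟨?_, ?_, ?_, ?_, ?_, ?_, ?_, ?_⟩
  · show c ≤ c + 0
    linarith
  · show cT * N z ≤ c + cT * (N z * (ρx z ^ 2 + ρy z ^ 2))
    rw [h1]
    have := mul_nonneg hT (mul_nonneg hN y2)
    nlinarith
  · show cT * N z ≤ c + cT * (N z * (ρx z ^ 2 + ρy z ^ 2))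
    rw [h1]
    have := mul_nonneg hT (mul_nonneg hN y2)
    nlinarith
  · show 0 ≤ c * ν.En z + 0
    positivity
  · show cT * N z ^ 3 ≤ c * ν.F₁ z + cT * (N z ^ 2 * ρx z ^ 2 + N z ^ 3 * ρy z ^ 2)
    rw [h1]
    have k1 := mul_nonneg hT (mul_nonneg (pow_nonneg hN 2) y2)
    have k2 := mul_nonneg hc f1
    nlinarith
  · show cT * N z ^ 2 ≤ c * ν.F₂ z + cT * (N z ^ 3 * ρx z ^ 2 + N z ^ 2 * ρy z ^ 2)
    rw [h1]
    have k1 := mul_nonneg hT (mul_nonneg (pow_nonneg hN 3) y2)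
    have k2 := mul_nonneg hc f2
    nlinarith
  · show 0 ≤ c * ν.En z ^ 2 + 0
    positivity
  · show 0 ≤ c * ν.wI z + 0
    positivity

/-- `0 ≤ dens` of the payer `zI`. -/
theorem zIL_nn {ν : Nu E} {c cT : ℝ} {N ρx ρy : E → ℝ} (s : Sg ν z) (hc : 0 ≤ c) (hT : 0 ≤ cT)
    (hN : 0 ≤ N z) : 0 ≤ (MI ν c + TL cT N ρx ρy).dens σ τ v₁ v₂ W a b z := by
  have f1 := s.F₁
  have f2 := s.F₂
  have e0 := s.En
  have hI := s.wI
  have x2 : 0 ≤ ρx z ^ 2 := sq_nonneg _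
  have y2 : 0 ≤ ρy z ^ 2 := sq_nonneg _
  have h := dens_mul_le (σ := σ) (τ := τ) (v₁ := v₁) (v₂ := v₂) (W := W) (a := a) (b := b)
    (z := z) (q := 0) (p := MI ν c) (M := MI ν c + TL cT N ρx ρy)
    (by show 0 * _ ≤ c + 0; rw [zero_mul]; positivity)
    (by show 0 * _ ≤ c + cT * (N z * (ρx z ^ 2 + ρy z ^ 2)); rw [zero_mul]; positivity)
    (by show 0 * _ ≤ c + cT * (N z * (ρx z ^ 2 + ρy z ^ 2)); rw [zero_mul]; positivity)
    (by show 0 * _ ≤ c * ν.En z + 0; rw [zero_mul]; positivity)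
    (by show 0 * _ ≤ c * ν.F₁ z + cT * (N z ^ 2 * ρx z ^ 2 + N z ^ 3 * ρy z ^ 2)
        rw [zero_mul]; positivity)
    (by show 0 * _ ≤ c * ν.F₂ z + cT * (N z ^ 3 * ρx z ^ 2 + N z ^ 2 * ρy z ^ 2)
        rw [zero_mul]; positivity)
    (by show 0 * _ ≤ c * ν.En z ^ 2 + 0; rw [zero_mul]; positivity)
    (by show 0 * _ ≤ c * ν.wI z + 0; rw [zero_mul]; positivity)
  linarith

/-- **The cost of `T1` against `zI`.** -/
theorem payL_T1_zI {ν : Nu E} {c cT q C : ℝ} {N ρx ρy et : E → ℝ} (s : Sg ν z) (hc : 0 ≤ c)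
    (hT : 0 ≤ cT) (hN : 0 < N z) (hq : 0 ≤ q) (hC : 0 ≤ C) (h0 : 0 ≤ et z) (h1 : et z ≤ 1)
    (hx : et z = 0 ∨ ρx z = 1) (hκ : q * C ≤ c * √(N z)) (hc' : q * C ≤ cT * √(N z)) :
    q * (coT1 C N et).dens σ τ v₁ v₂ W a b z ≤
      (MI ν c + TL cT N ρx ρy).dens σ τ v₁ v₂ W a b z := by
  rcases hx with h | h
  · rw [coT1_zero h, mul_zero]
    exact zIL_nn s hc hT hN.le
  · exact coT1_le (bigL1 s hc hT hN.le h) hN hq hC h0 h1 hκ hc'

/-- **The cost of `T2` against `zI`.** -/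
theorem payL_T2_zI {ν : Nu E} {c cT q C : ℝ} {N ρx ρy et : E → ℝ} (s : Sg ν z) (hc : 0 ≤ c)
    (hT : 0 ≤ cT) (hN : 0 < N z) (hq : 0 ≤ q) (hC : 0 ≤ C) (h0 : 0 ≤ et z) (h1 : et z ≤ 1)
    (hx : et z = 0 ∨ ρy z = 1) (hκ : q * C ≤ c * √(N z)) (hc' : q * C ≤ cT * √(N z)) :
    q * (coT2 C N et).dens σ τ v₁ v₂ W a b z ≤
      (MI ν c + TL cT N ρx ρy).dens σ τ v₁ v₂ W a b z := by
  rcases hx with h | h
  · rw [coT2_zero h, mul_zero]
    exact zIL_nn s hc hT hN.le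
  · exact coT2_le (bigL2 s hc hT hN.le h) hN hq hC h0 h1 hκ hc'

end pt

section pt2

variable {n : ℕ} {ι : Type*} [Fintype ι] {σ τ : Sl (VV n) ι} {v₁ v₂ W a b : VV n → ℝ} {z : VV n}

/-- **The cost of `zI` against every payer with `w₁, w₂ ≥ c N²`.** -/
theorem costL_zI_le {ν : Nu (VV n)} {C C' : ℝ} {Nf ρx ρy Zq Zp Z : VV n → ℝ} {M : Q8 (VV n)}
    {A N q c κ₁ N₁ a₁ a₂ : ℝ} (hb : C * (ν.En z * Zq z) ≤ A * N)
    (hcc : C * (ν.En z * Zp z + Zq z) ≤ A * N)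
    (hw : C' * (Nf z * (ρx z ^ 2 + ρy z ^ 2) * Z z) ≤ A * N)
    (hM : Big M κ₁ c N₁ a₁ a₂ z) (hκ : 0 ≤ κ₁) (hz : 0 ≤ c * N₁) (hq : 0 ≤ q)
    (h1 : q * (3 * (A * N)) ≤ c * a₁) (h2 : q * (3 * (A * N)) ≤ c * a₂) :
    q * (cI ν C Zq Zp + cTu C' Nf ρx ρy Z).dens σ τ v₁ v₂ W a b z ≤
      M.dens σ τ v₁ v₂ W a b z := by
  have k0 := sqd_nonneg σ τ v₁ v₂ W a b z
  have k1 := Q8.nX_nonneg σ W a z
  have k2 := Q8.nX_nonneg τ W b z
  have k3 := Q8.nY_nonneg σ τ W a b z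
  have j0 := mul_nonneg (hκ.trans hM.κ) k0
  have j1 := mul_nonneg (hz.trans hM.ζ₁) k1
  have j2 := mul_nonneg (hz.trans hM.ζ₂) k2
  have j3 := mul_nonneg hM.ζy k3
  have j4 := mul_le_mul_of_nonneg_right (h1.trans hM.w₁) (sq_nonneg (a z))
  have j5 := mul_le_mul_of_nonneg_right (h2.trans hM.w₂) (sq_nonneg (b z))
  have j6 := mul_nonneg hM.wb (sq_nonneg (a z + b z))
  have j7 := mul_nonneg hM.wc (sq_nonneg (a z - b z))
  have e : (cI ν C Zq Zp + cTu C' Nf ρx ρy Z).dens σ τ v₁ v₂ W a b z =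
      C * (ν.En z * Zq z) * (a z + b z) ^ 2 + C * (ν.En z * Zp z + Zq z) * (a z - b z) ^ 2 +
      C' * (Nf z * (ρx z ^ 2 + ρy z ^ 2) * Z z) * a z ^ 2 +
      C' * (Nf z * (ρx z ^ 2 + ρy z ^ 2) * Z z) * b z ^ 2 := by
    rw [Q8.dens_add]
    unfold Q8.dens cI cTu
    simp only
    ring
  have i1 := mul_le_mul_of_nonneg_right hb (sq_nonneg (a z + b z))
  have i2 := mul_le_mul_of_nonneg_right hcc (sq_nonneg (a z - b z))
  have i3 := mul_le_mul_of_nonneg_right hw (sq_nonneg (a z))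
  have i4 := mul_le_mul_of_nonneg_right hw (sq_nonneg (b z))
  have i7 : (cI ν C Zq Zp + cTu C' Nf ρx ρy Z).dens σ τ v₁ v₂ W a b z ≤
      3 * (A * N) * a z ^ 2 + 3 * (A * N) * b z ^ 2 := by
    rw [e]
    nlinarith
  have i8 := mul_le_mul_of_nonneg_left i7 hq
  refine i8.trans ?_
  unfold Q8.dens
  nlinarith

end pt2

/-! ## The literal cut-offs -/

variable {n : ℕ} {q : Cst} {d : Pk n} {z : VV n}

/-- The general conditions on the constants. -/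
structure Fz (n : ℕ) (q : Cst) : Prop where
  gt : GT n q
  nr : NrC n q
  ηc : q.ηc ≤ 1
  c0 : 0 < q.c₀
  cK : 0 < q.cK
  ν : 0 < q.ν₁
  nm : 0 < q.nm
  rT : 0 < q.rT
  M1 : 1 ≤ q.M₀
  bas : ∀ d : Pk n, PkOk q d → Bas q d
  sm : ∀ d : Pk n, PkOk q d → LitSm q d

theorem evFz (n : ℕ) : EvC (Fz n) := by
  have h1 : EvC fun q => q.ηc ≤ 1 := EvC.at_ηc (fun _ t => t ≤ 1) fun _ => sml_le one_pos
  refine ((((evGT n).and (evNr n)).and (h1.and EvC.pos)).and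
    ((H281.EP.rowBas n).and (EvC.litSm n))).mono ?_
  rintro q ⟨⟨⟨g, r⟩, h, ⟨-, -, p3, p4, -, p6, p7, p8, -, -⟩, -, pM, -⟩, b, s⟩
  exact ⟨g, r, h, p6, p4, p7, by linarith, p8, pM, b, s⟩

theorem bq_pos (hq : Fz n q) : 0 < bq q := by
  have := p₃_ge hq.gt.gc.rad
  have h : bq q = p₃ q ^ 2 := rfl
  rw [h]
  positivity

theorem F_nn_x (hq : Fz n q) (h : PkOk q d) (z : VV n) : 0 ≤ d.sx.F (d.W q) z := by
  have h1 := ((hq.bas d h).e₁ z.1 fun i => d.sx.D i (d.W q) z).1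
  have h2 : 0 ≤ ∑ i, d.sx.D i (d.W q) z ^ 2 := Finset.sum_nonneg fun _ _ => sq_nonneg _
  have e : d.sx.F (d.W q) z =
      ∑ i, ∑ j, d.s₁ z.1 i j * d.sx.D i (d.W q) z * d.sx.D j (d.W q) z := rfl
  rw [e]
  linarith

theorem F_nn_y (hq : Fz n q) (h : PkOk q d) (z : VV n) : 0 ≤ d.sy.F (d.W q) z := by
  have h1 := ((hq.bas d h).e₂ z.2 fun i => d.sy.D i (d.W q) z).1
  have h2 : 0 ≤ ∑ i, d.sy.D i (d.W q) z ^ 2 := Finset.sum_nonneg fun _ _ => sq_nonneg _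
  have e : d.sy.F (d.W q) z =
      ∑ i, ∑ j, d.s₂ z.2 i j * d.sy.D i (d.W q) z * d.sy.D j (d.W q) z := rfl
  rw [e]
  linarith

theorem sg_of (hq : Fz n q) (h : PkOk q d) (k : Cst → Pk n → VV n → ℝ) (z : VV n) :
    Sg (nu k q d) z where
  En := (Real.exp_pos _).le
  m := mul_nonneg (Real.exp_pos _).le (mul_nonneg zero_le_two ((hq.sm d h).rq0 z))
  F₁ := F_nn_x hq h z
  F₂ := F_nn_y hq h z

/-- `rr = 1` on the support of the costs of the tubes. -/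
theorem rr_one (hc : 0 < q.c₀) (h : 64 / 100 * q.c₀ ^ 2 < H31.EP.qq z) :
    H338.TC.rr q z = 1 := by
  unfold H338.TC.rr
  refine Real.smoothTransition.one_of_one_le ?_
  have h2 : 0 < q.c₀ ^ 2 := by positivity
  have : 2 ≤ 16 * H31.EP.qq z / q.c₀ ^ 2 := by
    rw [le_div_iff₀ h2]
    linarith
  linarith

/-- From the radius `rT` to the radius `4 rT`. -/
theorem t4 {s r : ℝ} (hr : 0 < r) (h : (4 * s / r ^ 2 - 1) / 3 < 3) :
    (4 * s / (4 * r) ^ 2 - 1) / 3 ≤ 0 := by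
  have h2 : 0 < r ^ 2 := by positivity
  have h1 : 4 * s / r ^ 2 < 10 := by linarith
  rw [div_lt_iff₀ h2] at h1
  have h3 : 4 * s / (4 * r) ^ 2 ≤ 1 := by
    rw [div_le_one (by positivity)]
    nlinarith
  linarith

theorem rx_one (hq : Fz n q) (h : PkOk q d) (he : etx q d z ≠ 0) : rx q d z = 1 := by
  obtain ⟨⟨h1, -⟩, h2, -⟩ := etx_supp hq.c0 (bq_pos hq) hq.ν hq.nm he
  have hNG := H710.GP.NG_pos hq.gt.gc h z
  have h3 := t4 (mul_pos hq.rT hNG) h2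
  unfold H338.TC.rx
  rw [rr_one hq.c0 h1, one_mul]
  refine Real.smoothTransition.one_of_one_le ?_
  have e : d.tx q (4 * q.rT) z =
      (4 * (∑ i, dx i (d.W0 q) z ^ 2) / (4 * (q.rT * d.NG q z)) ^ 2 - 1) / 3 := by
    unfold Pk.tx
    rw [mul_assoc]
  rw [e]
  linarith

theorem ry_one (hq : Fz n q) (h : PkOk q d) (he : ety q d z ≠ 0) : ry q d z = 1 := by
  obtain ⟨⟨h1, -⟩, h2, -⟩ := ety_supp hq.c0 (bq_pos hq) hq.ν hq.nm he
  have hNG := H710.GP.NG_pos hq.gt.gc h z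
  have h3 := t4 (mul_pos hq.rT hNG) h2
  unfold H338.TC.ry
  rw [rr_one hq.c0 h1, one_mul]
  refine Real.smoothTransition.one_of_one_le ?_
  have e : d.ty q (4 * q.rT) z =
      (4 * (∑ i, dy i (d.W0 q) z ^ 2) / (4 * (q.rT * d.NG q z)) ^ 2 - 1) / 3 := by
    unfold Pk.ty
    rw [mul_assoc]
  rw [e]
  linarith

/-- `34 CT ≤ c √N`. -/
theorem sq_M {M N X c : ℝ} (hc : 0 ≤ c) (h : X ≤ c * √M) (hN : M ≤ N) : X ≤ c * √N :=
  h.trans (mul_le_mul_of_nonneg_left (Real.sqrt_le_sqrt hN) hc)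

/-- The threshold. -/
theorem ev_sq {X c : Cst → ℝ} (hX : NB_M₀ X) (hc : NB_M₀ c) (h0 : ∀ q, 0 < c q) :
    EvC fun q => X q ≤ c q * √q.M₀ := by
  have h : EvC fun q => X q.b_M₀ ≤ c q.b_M₀ * √q.M₀ :=
    EvC.at_M₀ (fun q t => X q ≤ c q * √t) fun q =>
      (Real.tendsto_sqrt_atTop.const_mul_atTop (h0 q)).eventually_ge_atTop (X q)
  exact h.mono fun q hq => by rwa [hX q, hc q] at hq

theorem ev_lin {X c : Cst → ℝ} (hX : NB_M₀ X) (hc : NB_M₀ c) (h0 : ∀ q, 0 < c q) :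
    EvC fun q => X q ≤ c q * q.M₀ := by
  have h : EvC fun q => X q.b_M₀ ≤ c q.b_M₀ * q.M₀ :=
    EvC.at_M₀ (fun q t => X q ≤ c q * t) fun q =>
      (tendsto_id.const_mul_atTop (h0 q)).eventually_ge_atTop (X q)
  exact h.mono fun q hq => by rwa [hX q, hc q] at hq

/-! ## From `NB_X` to `NB_M₀` -/

theorem nbM_c' {f : Cst → ℝ} (h : NB_c' f) : NB_M₀ f := fun q => by
  rw [← h q, ← h q.b_M₀]
  rfl

theorem nbM_rT {f : Cst → ℝ} (h : NB_rT f) : NB_M₀ f := fun q => by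
  rw [← h q, ← h q.b_M₀]
  rfl

theorem nbM_c₀ {f : Cst → ℝ} (h : NB_c₀ f) : NB_M₀ f := fun q => by
  rw [← h q, ← h q.b_M₀]
  rfl

theorem nbM_ηc {f : Cst → ℝ} (h : NB_ηc f) : NB_M₀ f := fun q => by
  rw [← h q, ← h q.b_M₀]
  rfl

/-! ## The tubes against region I -/

theorem rowPay_T1_I {L : Lc n} (hL : L.Ok) (e : Cst → ℝ) : RowPay (Mz L) (coz L e) .T1 .zI := by
  have e1 := ev_sq (X := fun q => 34 * L.CT q) (c := L.cI)
    (fun q => by simp only [nbM_c' hL.CT.2 q]) (nbM_c₀ hL.cI.2) hL.cI.1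
  have e2 := ev_sq (X := fun q => 34 * L.CT q) (c := L.cN)
    (fun q => by simp only [nbM_c' hL.CT.2 q]) (nbM_c' hL.cN.2) hL.cN.1
  refine ((evFz n).and (e1.and e2)).mono ?_
  rintro q ⟨hq, h1, h2⟩ d h z - a b
  have hN := h.N_ge (d.u0 z)
  have hm := etx_mem q d z
  refine payL_T1_zI (sg_of hq h L.kz z) (hL.cI.1 q).le (hL.cN.1 q).le
    (h.N_pos hq.M1 (d.u0 z)) (by norm_num) (hL.CT.1 q).le hm.1 hm.2 ?_
    (sq_M (hL.cI.1 q).le h1 hN) (sq_M (hL.cN.1 q).le h2 hN)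
  by_cases he : etx q d z = 0
  · exact Or.inl he
  · exact Or.inr (rx_one hq h he)

theorem rowPay_T2_I {L : Lc n} (hL : L.Ok) (e : Cst → ℝ) : RowPay (Mz L) (coz L e) .T2 .zI := by
  have e1 := ev_sq (X := fun q => 34 * L.CT q) (c := L.cI)
    (fun q => by simp only [nbM_c' hL.CT.2 q]) (nbM_c₀ hL.cI.2) hL.cI.1
  have e2 := ev_sq (X := fun q => 34 * L.CT q) (c := L.cN)
    (fun q => by simp only [nbM_c' hL.CT.2 q]) (nbM_c' hL.cN.2) hL.cN.1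
  refine ((evFz n).and (e1.and e2)).mono ?_
  rintro q ⟨hq, h1, h2⟩ d h z - a b
  have hN := h.N_ge (d.u0 z)
  have hm := ety_mem q d z
  refine payL_T2_zI (sg_of hq h L.kz z) (hL.cI.1 q).le (hL.cN.1 q).le
    (h.N_pos hq.M1 (d.u0 z)) (by norm_num) (hL.CT.1 q).le hm.1 hm.2 ?_
    (sq_M (hL.cI.1 q).le h1 hN) (sq_M (hL.cN.1 q).le h2 hN)
  by_cases he : ety q d z = 0
  · exact Or.inl he
  · exact Or.inr (ry_one hq h he)

/-- A payment for every small parameter. -/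
theorem PayE.of {L : Lc n} {k j : Zo} (h : ∀ e, RowPay (Mz L) (coz L e) k j) : PayE L k j :=
  ⟨fun _ => 1, ⟨fun _ => rfl, fun _ => one_pos⟩, fun e _ _ => h e⟩

/-- **`zI` pays the cost of `T1`.** -/
theorem pay_T1_I {L : Lc n} (hL : L.Ok) : PayE L .T1 .zI := PayE.of (rowPay_T1_I hL)

/-- **`zI` pays the cost of `T2`.** -/
theorem pay_T2_I {L : Lc n} (hL : L.Ok) : PayE L .T2 .zI := PayE.of (rowPay_T2_I hL)

/-! ## Region I against the tubes -/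

theorem sq1_le (χ : VV n → ℝ) (z : VV n) : sq1 χ z = 2 * gq χ z + gp χ z / 2 := by
  unfold H867.Z.sq1 H205.CP.gq H205.CP.gp
  rw [Finset.mul_sum, Finset.sum_div, ← Finset.sum_add_distrib]
  refine Finset.sum_congr rfl fun i _ => ?_
  unfold H205.CP.dq H205.CP.dp
  ring

theorem sqp_eq (χ : VV n → ℝ) (z : VV n) : sqp χ z = gp χ z := rfl

/-- The bound of `|D χ|²` for `zI` in the windows of the slope. -/
def S1 (n : ℕ) (q : Cst) : ℝ :=
  2 * (n * (a0 n q ^ 2 * (1 + 2 / q.c₀ ^ 2 + 3 / (q.cK * q.ν₁)))) + n * a0 n q ^ 2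

theorem S1_nn (hq : Fz n q) : 0 ≤ S1 n q := by
  have := hq.c0
  have := hq.cK
  have := hq.ν
  have := a0_nn hq.nr
  unfold S1
  positivity

/-- The constant of the costs. -/
def AI (L : Lc n) (q : Cst) : ℝ := 4 * (L.CI q + L.CN q) * S1 n q * (1 + 1 / q.ν₁)

theorem AI_nb {L : Lc n} (hL : L.Ok) : NB_M₀ (AI L) := fun q => by
  have h1 := nbM_c₀ hL.CI.2 q
  have h2 := nbM_c' hL.CN.2 q
  have h3 := nbM_ηc (a0_nb n) q
  have e1 : q.b_M₀.c₀ = q.c₀ := rfl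
  have e2 : q.b_M₀.cK = q.cK := rfl
  have e3 : q.b_M₀.ν₁ = q.ν₁ := rfl
  unfold AI S1
  rw [h1, h2, h3, e1, e2, e3]

/-- The numbers of `zI` at a point of a tube. -/
theorem num_T (hq : Fz n q) (h : PkOk q d) (hz : TR q d z) :
    sq1 (d.ch q .zI) z ≤ S1 n q ∧ sqp (d.ch q .zI) z ≤ S1 n q ∧
      d.E q z ≤ 1 / q.ν₁ * Na d z := by
  have hν := hq.ν
  have hcK := hq.cK
  have hc0 := hq.c0
  have ha := a0_nn hq.nr
  have hE : 0 < d.E q z := Real.exp_pos _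
  have hu := u_close h z
  have hn1 := (hz.near hq.gt h hu).2
  have hN : 0 < d.N q z := h.N_pos hq.M1 _
  have hK : 9 / 10 * d.N q z ≤ d.Kf q z := by
    rcases hz.win hq.gt h with ⟨-, -, hw⟩ | ⟨-, -, hw⟩
    · exact (hw.k2 _ (hu.trans (by norm_num))).ge
    · have h1 := hw.k2 _ (hu.trans (by norm_num))
      have h2 : d.Kf q z = 2 * d.N q z := h1
      rw [h2]
      linarith
  have hEK : 2 * d.E q z / (q.cK * d.Kf q z) ≤ 3 / (q.cK * q.ν₁) := by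
    have hK0 : 0 < d.Kf q z := by linarith
    have h1 : q.ν₁ * d.E q z ≤ d.N q z := hn1
    rw [div_le_div_iff₀ (by positivity) (by positivity)]
    have h2 : q.ν₁ * d.E q z ≤ 10 / 9 * d.Kf q z := by linarith
    have h3 := mul_le_mul_of_nonneg_left h2 hcK.le
    have h4 : 0 ≤ q.cK * d.Kf q z := by positivity
    nlinarith
  have h1 := gq_le hq.nr hq.ηc h hc0 hcK z
  have h2 := gp_le hq.nr hq.ηc h (k := .zI) (by unfold H867.EP.Near; tauto) z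
  have hn : (0 : ℝ) ≤ n := Nat.cast_nonneg n
  have h3 : gq (d.ch q .zI) z ≤ n * (a0 n q ^ 2 * (1 + 2 / q.c₀ ^ 2 + 3 / (q.cK * q.ν₁))) := by
    refine h1.trans (mul_le_mul_of_nonneg_left (mul_le_mul_of_nonneg_left ?_ (sq_nonneg _)) hn)
    linarith
  have p1 : 0 ≤ (n : ℝ) * (a0 n q ^ 2 * (1 + 2 / q.c₀ ^ 2 + 3 / (q.cK * q.ν₁))) := by positivity
  have p2 : 0 ≤ (n : ℝ) * a0 n q ^ 2 := by positivity
  refine ⟨?_, ?_, ?_⟩
  · rw [sq1_le]
    unfold S1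
    linarith
  · rw [sqp_eq]
    unfold S1
    linarith
  · have h4 := hz.lo hq.gt h
    have h5 : d.E q z ≤ Real.exp 2 * Real.exp (d.u0 z) := by
      show Real.exp (d.u q z) ≤ _
      rw [← Real.exp_add]
      refine Real.exp_le_exp.2 ?_
      have := (abs_le.1 hu).2
      linarith
    have h6 := mul_le_mul_of_nonneg_left h5 hν.le
    have h7 : q.ν₁ * d.E q z ≤ Na d z := by
      refine h6.trans (le_trans (le_of_eq ?_) h4)
      ring
    rw [div_mul_eq_mul_div, le_div_iff₀ hν]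
    linarith

/-- The three letters of the cost of `zI` at a point of a tube. -/
theorem let_T {L : Lc n} (hL : L.Ok) (hq : Fz n q) (h : PkOk q d) (hz : TR q d z) :
    L.CI q * (d.E q z * sq1 (d.ch q .zI) z) ≤ AI L q * Na d z ∧
    L.CI q * (d.E q z * sqp (d.ch q .zI) z + sq1 (d.ch q .zI) z) ≤ AI L q * Na d z ∧
    L.CN q * (Na d z * (rx q d z ^ 2 + ry q d z ^ 2) * sq1 (d.ch q .zI) z) ≤
      AI L q * Na d z := by
  obtain ⟨s1, s2, s3⟩ := num_T hq h hz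
  have hCI := hL.CI.1 q
  have hCN := hL.CN.1 q
  have hS := S1_nn hq
  have hν := hq.ν
  have k1 := sq1_nn (d.ch q .zI) z
  have k2 := sqp_nn (d.ch q .zI) z
  have hE : 0 < d.E q z := Real.exp_pos _
  have hN1 : 1 ≤ Na d z := hq.M1.trans (h.N_ge _)
  have hν' : 0 ≤ 1 / q.ν₁ := by positivity
  have e1 : d.E q z * sq1 (d.ch q .zI) z ≤ 1 / q.ν₁ * Na d z * S1 n q :=
    mul_le_mul s3 s1 k1 (by positivity)
  have e2 : d.E q z * sqp (d.ch q .zI) z ≤ 1 / q.ν₁ * Na d z * S1 n q :=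
    mul_le_mul s3 s2 k2 (by positivity)
  have e3 : sq1 (d.ch q .zI) z ≤ S1 n q * Na d z := by
    refine s1.trans (le_mul_of_one_le_right hS hN1)
  have hx : rx q d z ^ 2 ≤ 1 := by
    have h0 : 0 ≤ rx q d z :=
      mul_nonneg (Real.smoothTransition.nonneg _) (Real.smoothTransition.nonneg _)
    have h1 : rx q d z ≤ 1 := mul_le_one₀ (Real.smoothTransition.le_one _)
      (Real.smoothTransition.nonneg _) (Real.smoothTransition.le_one _)
    exact pow_le_one₀ h0 h1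
  have hy : ry q d z ^ 2 ≤ 1 := by
    have h0 : 0 ≤ ry q d z :=
      mul_nonneg (Real.smoothTransition.nonneg _) (Real.smoothTransition.nonneg _)
    have h1 : ry q d z ≤ 1 := mul_le_one₀ (Real.smoothTransition.le_one _)
      (Real.smoothTransition.nonneg _) (Real.smoothTransition.le_one _)
    exact pow_le_one₀ h0 h1
  have hT : 0 ≤ S1 n q * Na d z := by positivity
  have hT' : 0 ≤ 1 / q.ν₁ * Na d z * S1 n q := by positivity
  have eA : AI L q * Na d z = 4 * L.CI q * (S1 n q * Na d z) +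
      4 * L.CI q * (1 / q.ν₁ * Na d z * S1 n q) + 4 * L.CN q * (S1 n q * Na d z) +
      4 * L.CN q * (1 / q.ν₁ * Na d z * S1 n q) := by
    unfold AI
    ring
  have p1 := mul_nonneg hCI.le hT
  have p2 := mul_nonneg hCI.le hT'
  have p3 := mul_nonneg hCN.le hT
  have p4 := mul_nonneg hCN.le hT'
  rw [eA]
  refine ⟨?_, ?_, ?_⟩
  · have := mul_le_mul_of_nonneg_left e1 hCI.le
    linarith
  · have := mul_le_mul_of_nonneg_left (add_le_add e2 e3) hCI.le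
    linarith
  · have j1 : Na d z * (rx q d z ^ 2 + ry q d z ^ 2) ≤ Na d z * 2 :=
      mul_le_mul_of_nonneg_left (by linarith) (by linarith)
    have j2 : Na d z * (rx q d z ^ 2 + ry q d z ^ 2) * sq1 (d.ch q .zI) z ≤
        Na d z * 2 * S1 n q := mul_le_mul j1 s1 k1 (by linarith)
    have := mul_le_mul_of_nonneg_left j2 hCN.le
    linarith

/-- The threshold of the payments. -/
theorem ev_IT {L : Lc n} (hL : L.Ok) : EvC fun q => 102 * AI L q ≤ L.cT q * q.M₀ :=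
  ev_lin (X := fun q => 102 * AI L q) (c := L.cT) (fun q => by simp only [AI_nb hL q])
    (nbM_rT hL.cT.2) hL.cT.1

/-- **`T1` pays the cost of `zI`** where both cut-offs are not zero. -/
theorem pay_I_T1 {L : Lc n} (hL : L.Ok) (e : Cst → ℝ) :
    H558.G.RowPayW (Mz L) (coz L e) .zI .T1 := by
  refine ((evFz n).and (ev_IT hL)).mono ?_
  rintro q ⟨hq, h1⟩ d h z - hj a b
  obtain ⟨hz, -⟩ := alive_T1 hq.gt h (hq.sm d h) hj
  obtain ⟨l1, l2, l3⟩ := let_T hL hq h hz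
  have hc := hL.cT.1 q
  have hM : q.M₀ ≤ Na d z := h.N_ge _
  have hN1 : 1 ≤ Na d z := hq.M1.trans hM
  have h2 : 102 * AI L q ≤ L.cT q * Na d z := h1.trans (mul_le_mul_of_nonneg_left hM hc.le)
  have h3 := mul_le_mul_of_nonneg_right h2 (by linarith : 0 ≤ Na d z)
  have h4 : L.cT q * Na d z ^ 2 ≤ L.cT q * Na d z ^ 3 := mul_le_mul_of_nonneg_left (cub hN1) hc.le
  exact costL_zI_le l1 l2 l3 (big_T1 (L.cT q) (Na d) z) zero_le_one
    (by positivity) (by norm_num) (by linarith) (by linarith)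

/-- **`T2` pays the cost of `zI`** where both cut-offs are not zero. -/
theorem pay_I_T2 {L : Lc n} (hL : L.Ok) (e : Cst → ℝ) :
    H558.G.RowPayW (Mz L) (coz L e) .zI .T2 := by
  refine ((evFz n).and (ev_IT hL)).mono ?_
  rintro q ⟨hq, h1⟩ d h z - hj a b
  obtain ⟨hz, -⟩ := alive_T2 hq.gt h (hq.sm d h) hj
  obtain ⟨l1, l2, l3⟩ := let_T hL hq h hz
  have hc := hL.cT.1 q
  have hM : q.M₀ ≤ Na d z := h.N_ge _
  have hN1 : 1 ≤ Na d z := hq.M1.trans hM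
  have h2 : 102 * AI L q ≤ L.cT q * Na d z := h1.trans (mul_le_mul_of_nonneg_left hM hc.le)
  have h3 := mul_le_mul_of_nonneg_right h2 (by linarith : 0 ≤ Na d z)
  have h4 : L.cT q * Na d z ^ 2 ≤ L.cT q * Na d z ^ 3 := mul_le_mul_of_nonneg_left (cub hN1) hc.le
  exact costL_zI_le l1 l2 l3 (big_T2 (L.cT q) (Na d) z) zero_le_one
    (by positivity) (by norm_num) (by linarith) (by linarith)

end Vale.Agent.P088.R2.H446.E
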